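import Vale.Agent.Lib.P202.Fat

namespace Vale.Agent.Results.P202.AA_union

open IsLocalRing Filter Topology

/-- Let `R → S` be a flat local homomorphism of Noetherian local rings with Artinian closed fibre
`F = S/mS`. For `d ≥ 2`, if `d! ℓ(R/m^N) / N^d → eR` and `d! ℓ(S/n^N) / N^d → eS` then:
`eR ≤ (d-1)! eS`; `eR ≤ eS` when `F` has embedding dimension at most two; and for every `t` with
`n^t ⊆ mS`, `ℓ(F) eR ≤ t^d eS`, so that `eR ≤ eS` as soon as `t^d ≤ ℓ(F)`. -/
theorem result {R S : Type*} [CommRing R] [CommRing S] [IsLocalRing R] [IsLocalRing S]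
    [IsNoetherianRing R] [IsNoetherianRing S] [Algebra R S] [Module.Flat R S]
    [IsLocalHom (algebraMap R S)]
    (hF : IsArtinianRing (S ⧸ (maximalIdeal R).map (algebraMap R S)))
    (d : ℕ) (hd : 2 ≤ d) (eR eS : ℝ)
    (hR : Tendsto (fun N : ℕ => (d.factorial : ℝ) *
        ((Module.length R (R ⧸ maximalIdeal R ^ N)).toNat : ℝ) / (N : ℝ) ^ d) atTop (𝓝 eR))
    (hS : Tendsto (fun N : ℕ => (d.factorial : ℝ) *
        ((Module.length S (S ⧸ maximalIdeal S ^ N)).toNat : ℝ) / (N : ℝ) ^ d) atTop (𝓝 eS)) :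
    eR ≤ ((d - 1).factorial : ℝ) * eS ∧
      ((∃ p q : S, maximalIdeal S = (maximalIdeal R).map (algebraMap R S) ⊔ Ideal.span {p, q}) →
        eR ≤ eS) ∧
      ∀ t : ℕ, maximalIdeal S ^ t ≤ (maximalIdeal R).map (algebraMap R S) →
        ((Module.length S (S ⧸ (maximalIdeal R).map (algebraMap R S))).toNat : ℝ) * eR
            ≤ (t : ℝ) ^ d * eS ∧
          (t ^ d ≤ (Module.length S (S ⧸ (maximalIdeal R).map (algebraMap R S))).toNat →
            eR ≤ eS) := by
  have hfin1 : Vale.Agent.Lib.P202.ilen ((maximalIdeal R).map (algebraMap R S)) ≠ ⊤ := by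
    unfold Vale.Agent.Lib.P202.ilen
    rw [Module.length_eq_of_surjective (S := S)
      (R := S ⧸ (maximalIdeal R).map (algebraMap R S)) Ideal.Quotient.mk_surjective
      (M := S ⧸ (maximalIdeal R).map (algebraMap R S))]
    exact Module.length_ne_top
  obtain ⟨h1, h2⟩ := Vale.Agent.Lib.P202.main_final hfin1 d hd hR hS
  refine ⟨h1, h2, fun t ht => ?_⟩
  have h3 := Vale.Agent.Lib.P202.fat_final hfin1 d hd hR hS t ht
  have heR : 0 ≤ eR := ge_of_tendsto' hR fun N => by positivity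
  have ht1 : 1 ≤ t := by
    rw [Nat.one_le_iff_ne_zero]
    rintro rfl
    rw [pow_zero, Ideal.one_eq_top, top_le_iff] at ht
    have hal : (maximalIdeal R).map (algebraMap R S) ≤ maximalIdeal S :=
      Vale.Agent.Lib.P202.map_max_le
    rw [ht] at hal
    exact (maximalIdeal.isMaximal S).ne_top (top_le_iff.mp hal)
  refine ⟨h3, fun hle => ?_⟩
  have htd : (0 : ℝ) < (t : ℝ) ^ d := by
    have : (0 : ℝ) < (t : ℝ) := by exact_mod_cast ht1
    positivity
  have hle' : (t : ℝ) ^ d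
      ≤ ((Module.length S (S ⧸ (maximalIdeal R).map (algebraMap R S))).toNat : ℝ) := by
    exact_mod_cast hle
  have h4 : (t : ℝ) ^ d * eR ≤ (t : ℝ) ^ d * eS :=
    le_trans (mul_le_mul_of_nonneg_right hle' heR) h3
  exact le_of_mul_le_mul_left h4 htd

end Vale.Agent.Results.P202.AA_union
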